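import Vale.Agent.Lib.P095.Main

open Filter

namespace Vale.Agent.Results.P095.A_main

open Vale.Agent.Lib.P101 Vale.Agent.Lib.P095

/-- For an action `α` of a countable group on a unital separable C*-algebra `A` and a free
ultrafilter `ω`, the fixed point algebra `F_ω(A)^α` has no characters if and only if there is a
unital star homomorphism from the dimension drop algebra `Z_{2,3}` to `F_ω(A)^α`. -/
theorem result {A : Type*} [CStarAlgebra A] [TopologicalSpace.SeparableSpace A]
    {G : Type*} [Group G] [Countable G] (α : G →* (A ≃⋆ₐ[ℂ] A))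
    (ω : Ultrafilter ℕ) (hω : (ω : Filter ℕ) ≤ cofinite) :
    IsEmpty (FωFixAlg A ω α →⋆ₐ[ℂ] ℂ) ↔ Nonempty (Z23Alg →⋆ₐ[ℂ] FωFixAlg A ω α) :=
  ⟨exists_hom_fix hω α, fun ⟨Φ⟩ => no_char_of_hom (R := FωFixAlg A ω α) Φ⟩

end Vale.Agent.Results.P095.A_main
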